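import Vale.Agent.Lib.P356.helper23.Defs

/-!
Polynomials of matrices: eigen relations and commutation (pool piece P356-H, seat helper34).
-/

namespace Vale.Agent.Lib.P356.H34

open Matrix
open Vale.Agent.Lib.P356

theorem aeval_mul_of_mul_eq {n : Type*} [Fintype n] [DecidableEq n] (h Q : Matrix n n ℂ)
    (lam : ℂ) (hQ : h * Q = lam • Q) (p : Polynomial ℂ) :
    Polynomial.aeval h p * Q = p.eval lam • Q := by
  induction p using Polynomial.induction_on with
  | C c =>
    rw [Polynomial.aeval_C, Polynomial.eval_C, Algebra.algebraMap_eq_smul_one,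
      Matrix.smul_mul, Matrix.one_mul]
  | add s t hs ht =>
    rw [map_add, Polynomial.eval_add, Matrix.add_mul, hs, ht, add_smul]
  | monomial k c ih =>
    have e : (Polynomial.C c * Polynomial.X ^ (k + 1) : Polynomial ℂ)
        = Polynomial.C c * Polynomial.X ^ k * Polynomial.X := by
      rw [pow_succ, mul_assoc]
    rw [e, map_mul, Polynomial.aeval_X, Polynomial.eval_mul, Polynomial.eval_X,
      Matrix.mul_assoc, hQ, Matrix.mul_smul, ih, smul_smul, mul_comm]

theorem aeval_mulVec_of_mulVec_eq {n : Type*} [Fintype n] [DecidableEq n] (h : Matrix n n ℂ)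
    (ψ : n → ℂ) (lam : ℂ) (hψ : h *ᵥ ψ = lam • ψ) (p : Polynomial ℂ) :
    Polynomial.aeval h p *ᵥ ψ = p.eval lam • ψ := by
  induction p using Polynomial.induction_on with
  | C c =>
    rw [Polynomial.aeval_C, Polynomial.eval_C, Algebra.algebraMap_eq_smul_one,
      Matrix.smul_mulVec, Matrix.one_mulVec]
  | add s t hs ht =>
    rw [map_add, Polynomial.eval_add, Matrix.add_mulVec, hs, ht, add_smul]
  | monomial k c ih =>
    have e : (Polynomial.C c * Polynomial.X ^ (k + 1) : Polynomial ℂ)
        = Polynomial.C c * Polynomial.X ^ k * Polynomial.X := by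
      rw [pow_succ, mul_assoc]
    rw [e, map_mul, Polynomial.aeval_X, Polynomial.eval_mul, Polynomial.eval_X,
      ← Matrix.mulVec_mulVec, hψ, Matrix.mulVec_smul, ih, smul_smul, mul_comm]

/-- A polynomial of a matrix commutes with everything the matrix commutes with. -/
theorem aeval_commute_right {n : Type*} [Fintype n] [DecidableEq n] (a b : Matrix n n ℂ)
    (hab : Commute a b) (p : Polynomial ℂ) : Commute (Polynomial.aeval a p) b := by
  induction p using Polynomial.induction_on with
  | C c =>
    rw [Polynomial.aeval_C]
    exact Algebra.commute_algebraMap_left c b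
  | add s t hs ht =>
    rw [map_add]
    exact hs.add_left ht
  | monomial k c ih =>
    have e : (Polynomial.C c * Polynomial.X ^ (k + 1) : Polynomial ℂ)
        = Polynomial.C c * Polynomial.X ^ k * Polynomial.X := by
      rw [pow_succ, mul_assoc]
    rw [e, map_mul, Polynomial.aeval_X]
    exact ih.mul_left hab

theorem aeval_comm {n : Type*} [Fintype n] [DecidableEq n] (a b : Matrix n n ℂ)
    (hab : a * b = b * a) (p r : Polynomial ℂ) :
    Polynomial.aeval a p * Polynomial.aeval b r = Polynomial.aeval b r * Polynomial.aeval a p := by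
  have h1 : Commute (Polynomial.aeval a p) b := aeval_commute_right a b hab p
  have h2 : Commute (Polynomial.aeval b r) (Polynomial.aeval a p) :=
    aeval_commute_right b (Polynomial.aeval a p) h1.symm r
  exact h2.symm.eq

end Vale.Agent.Lib.P356.H34
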